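import Vale.Agent.P216.H467.Cross
import Vale.Agent.P216.AS.Setup707

/-! # CROSS (ii) for the pairs of `AS/Setup707` -/

open Set Topology

namespace Vale.Agent.P216.GSys

open AS

variable {Λ : Type} [MetricSpace Λ] (S : GSys Λ)

theorem sym_gcx (k : Type) [Field k] (p : ℕ) (hp : 0 < p) : (S.sym k p hp).gcx = S.G k p hp := rfl

/-- **CROSS (ii)** for `Sym.PR`. -/
theorem chi_cross_PR {p : ℕ} (hp : p.Prime) (hp2 : 2 < p) {a : ℝ} (ha : 0 < a) :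
    ∃ ε₀ > 0, ε₀ < a ∧ ∀ ε, 0 < ε → ε ≤ ε₀ → ∀ (k : Type) [Field k]
      (h : (S.sym k p hp.pos).Good (S.X (a + ε)))
      (hA : (S.sym k p hp.pos).GoodSub (S.X (a + ε)) (S.X (a + ε)))
      (hB : (S.sym k p hp.pos).GoodSub (S.X (a + ε)) (S.X (a - ε)))
      (hBA : S.X (a - ε) ⊆ S.X (a + ε)) (n : ℕ),
        chi (GCx.Pair.rH (Sym.PR_rstable h hA hB hBA) n) = 0 ∧
        chi (GCx.Pair.rF (Sym.PR_rstable h hA hB hBA) n) = 0 := by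
  obtain ⟨ε₀, hε₀, hlt, H⟩ := S.chi_cross hp hp2 ha
  refine ⟨ε₀, hε₀, hlt, fun ε hε hle k _ h hA hB hBA n => ?_⟩
  exact H ε hε hle k (Sym.PR h hA hB hBA) rfl rfl (Sym.PR_rstable h hA hB hBA) n

/-- **CROSS (ii)** for any pair of the complex `(S.sym k p hp.pos).gcx`. -/
theorem chi_cross_sym {p : ℕ} (hp : p.Prime) (hp2 : 2 < p) {a : ℝ} (ha : 0 < a) :
    ∃ ε₀ > 0, ε₀ < a ∧ ∀ ε, 0 < ε → ε ≤ ε₀ → ∀ (k : Type) [Field k]
      (P : (S.sym k p hp.pos).gcx.Pair),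
      P.S = Zr (fun _ : Unit => S.τ) (fun _ : Unit => (-1 : k)) (S.X (a + ε)) (S.X (a - ε)) →
      P.T = Zr (fun _ : Unit => S.τ) (fun _ : Unit => (-1 : k)) (S.X (a + ε)) (S.X (a + ε)) →
      ∀ (hR : P.RStable (S.sym k p hp.pos).rev) (n : ℕ),
        chi (GCx.Pair.rH hR n) = 0 ∧ chi (GCx.Pair.rF hR n) = 0 := by
  obtain ⟨ε₀, hε₀, hlt, H⟩ := S.chi_cross hp hp2 ha
  refine ⟨ε₀, hε₀, hlt, fun ε hε hle k _ P hS hT hR n => ?_⟩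
  exact H ε hε hle k P hS hT hR n

end Vale.Agent.P216.GSys
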