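import Vale.Agent.P216.AS.TotMap

set_option linter.unusedSectionVars false

/-! # Balanced pairs: two orthogonal morphisms exchanged by the reversal (CROSS (ii), algebra) -/

open Module LinearMap

namespace Vale.Agent.P216.AS

variable {k : Type} [Field k] {C C' : Amb k} {G : GCx C} {G' : GCx C'}

namespace IsMor

variable {S T : Sub C} {S' T' : Sub C'} {φ ψ : ∀ n, C.K n →ₗ[k] C'.K n}

theorem add' (h : IsMor S T S' T' φ) (h' : IsMor S T S' T' ψ) :
    IsMor S T S' T' fun n => φ n + ψ n where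
  mapS hx := Submodule.add_mem _ (h.mapS hx) (h'.mapS hx)
  mapT hx := Submodule.add_mem _ (h.mapT hx) (h'.mapT hx)
  comm {n x} hx := by
    have := Submodule.add_mem _ (h.comm hx) (h'.comm hx)
    convert this using 1
    rw [LinearMap.add_apply, LinearMap.add_apply, map_add]
    abel

theorem neg' (h : IsMor S T S' T' φ) : IsMor S T S' T' fun n => -φ n where
  mapS hx := Submodule.neg_mem _ (h.mapS hx)
  mapT hx := Submodule.neg_mem _ (h.mapT hx)
  comm {n x} hx := by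
    have := Submodule.neg_mem _ (h.comm hx)
    convert this using 1
    rw [LinearMap.neg_apply, LinearMap.neg_apply, map_neg]
    abel

end IsMor

section HmapLin

variable {S T : Sub C} {S' T' : Sub C'} {φ ψ : ∀ n, C.K n →ₗ[k] C'.K n}

theorem Hmap_add' (h : IsMor S T S' T' φ) (h' : IsMor S T S' T' ψ) (n : ℕ) :
    Hmap (h.add' h') n = Hmap h n + Hmap h' n := H.hom_ext fun x hx => by
  rw [LinearMap.add_apply, Hmap_mk, Hmap_mk, Hmap_mk, ← H.mk_add]
  rfl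

theorem Hmap_neg' (h : IsMor S T S' T' φ) (n : ℕ) :
    Hmap h.neg' n = -Hmap h n := H.hom_ext fun x hx => by
  rw [LinearMap.neg_apply, Hmap_mk, Hmap_mk, ← H.mk_neg]
  rfl

end HmapLin

namespace IsGMor

variable {P : G.Pair} {P' : G'.Pair} {φ ψ : ∀ n, C.K n →ₗ[k] C'.K n}

theorem add' (h : IsGMor P P' φ) (h' : IsGMor P P' ψ) : IsGMor P P' fun n => φ n + ψ n where
  toIsMor := h.toIsMor.add' h'.toIsMor
  comm_g {n x} hx := by
    have := Submodule.add_mem _ (h.comm_g hx) (h'.comm_g hx)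
    convert this using 1
    rw [LinearMap.add_apply, LinearMap.add_apply, map_add]
    abel
  comm_nm {n x} hx := by
    have := Submodule.add_mem _ (h.comm_nm hx) (h'.comm_nm hx)
    convert this using 1
    rw [LinearMap.add_apply, LinearMap.add_apply, map_add]
    abel

theorem neg' (h : IsGMor P P' φ) : IsGMor P P' fun n => -φ n where
  toIsMor := h.toIsMor.neg'
  comm_g {n x} hx := by
    have := Submodule.neg_mem _ (h.comm_g hx)
    convert this using 1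
    rw [LinearMap.neg_apply, LinearMap.neg_apply, map_neg]
    abel
  comm_nm {n x} hx := by
    have := Submodule.neg_mem _ (h.comm_nm hx)
    convert this using 1
    rw [LinearMap.neg_apply, LinearMap.neg_apply, map_neg]
    abel

theorem mapF_add' (h : IsGMor P P' φ) (h' : IsGMor P P' ψ) (n : ℕ) (x : P.FF n) :
    (h.add' h').mapF n x = h.mapF n x + h'.mapF n x := by
  obtain ⟨x, hx, rfl⟩ := H.exists_mk x
  rw [mapF_mk, mapF_mk, mapF_mk, ← H.mk_add]
  rfl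

theorem mapF_neg' (h : IsGMor P P' φ) (n : ℕ) (x : P.FF n) :
    h.neg'.mapF n x = -h.mapF n x := by
  obtain ⟨x, hx, rfl⟩ := H.exists_mk x
  rw [mapF_mk, mapF_mk, ← H.mk_neg]
  rfl

theorem mapH_add' (h : IsGMor P P' φ) (h' : IsGMor P P' ψ) (n : ℕ) (x : P.HH n) :
    (h.add' h').mapH n x = h.mapH n x + h'.mapH n x := by
  obtain ⟨x, hx, rfl⟩ := H.exists_mk x
  change H.mk _ _ = H.mk _ _ + H.mk _ _
  rw [← H.mk_add]
  rfl

theorem mapH_neg' (h : IsGMor P P' φ) (n : ℕ) (x : P.HH n) :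
    h.neg'.mapH n x = -h.mapH n x := by
  obtain ⟨x, hx, rfl⟩ := H.exists_mk x
  change H.mk _ _ = -H.mk _ _
  rw [← H.mk_neg]
  rfl

/-- A morphism with values in the smaller subcomplex induces `0`. -/
theorem mapF_eq_zero (h : IsGMor P P' φ) (h0 : ∀ {n x}, x ∈ P.S.S n → φ n x ∈ P'.T.S n) (n : ℕ)
    (x : P.FF n) : h.mapF n x = 0 := by
  obtain ⟨x, hx, rfl⟩ := H.exists_mk x
  rw [mapF_mk, H.mk_eq_zero]
  exact T_le_Bc _ _ _ (seq_TS (P' := ⟨P'.T, P'.T, P'.hT, P'.hT, fun _ => le_rfl⟩)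
    (fun hx => h0 hx) (mem_Zc.mp hx).1)

theorem mapH_eq_zero (h : IsGMor P P' φ) (h0 : ∀ {n x}, x ∈ P.S.S n → φ n x ∈ P'.T.S n) (n : ℕ)
    (x : P.HH n) : h.mapH n x = 0 := by
  obtain ⟨x, hx, rfl⟩ := H.exists_mk x
  change H.mk _ _ = 0
  rw [H.mk_eq_zero]
  exact T_le_Bc _ _ _ (h0 (mem_Zc.mp hx).1)

section Twisted

variable {R : Rev G} {R' : Rev G'}

/-- Two morphisms exchanged by the reversal. -/
theorem seq_RT' (h : IsGMor P P' ψ)
    (hr : ∀ {n x}, x ∈ P.S.S n → R'.r n (φ n x) - ψ n (R.r n x) ∈ P'.T.S n)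
    (hR : P.RStable R) (m : ℕ) {n : ℕ} {c : ∀ q, C.K q}
    (hc : c ∈ (G.TotS P.S P.hS).S n) :
    R'.RT m (seq φ c) - seq ψ (R.RT m c) ∈ (G'.TotS P'.T P'.hT).S n := by
  refine ⟨fun q hq => ?_, fun q hq => ?_⟩
  · change R'.ρ (m + 3 * q) q (φ q (c q)) - ψ q (R.ρ (m + 3 * q) q (c q)) ∈ _
    have hcq := hc.1 q hq
    have h1 := hr hcq
    have h2 : G'.g q (R'.r q (φ q (c q))) - ψ q (G.g q (R.r q (c q))) ∈ P'.T.S q := by
      have h3 := P'.hT.g_mem _ _ h1
      have h4 := h.comm_g (hR.S _ _ hcq)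
      rw [map_sub] at h3
      have := Submodule.add_mem _ h3 h4
      convert this using 1
      abel
    rcases Rev.four_cases (m + 3 * q) with h' | h' | h' | h'
    · rw [R.ρ_zero h', R'.ρ_zero h']; exact h1
    · rw [R.ρ_one h', R'.ρ_one h', map_neg]
      have := Submodule.neg_mem _ h2
      convert this using 1
      abel
    · rw [R.ρ_two h', R'.ρ_two h', map_neg]
      have := Submodule.neg_mem _ h1
      convert this using 1
      abel
    · rw [R.ρ_three h', R'.ρ_three h']; exact h2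
  · change R'.ρ (m + 3 * q) q (φ q (c q)) - ψ q (R.ρ (m + 3 * q) q (c q)) = 0
    rw [hc.2 q hq]
    simp

theorem rF_mapF' (h : IsGMor P P' φ) (h' : IsGMor P P' ψ)
    (hr : ∀ {n x}, x ∈ P.S.S n → R'.r n (φ n x) - ψ n (R.r n x) ∈ P'.T.S n)
    (hR : P.RStable R) (hR' : P'.RStable R') (n : ℕ) (x : P.FF n) :
    GCx.Pair.rF hR' n (h.mapF n x) = h'.mapF n (GCx.Pair.rF hR n x) := by
  obtain ⟨x, hx, rfl⟩ := H.exists_mk x
  refine (H.mk_eq_mk (C := G'.Tot) (n := n) (x := R'.RT n (seq φ x))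
    (y := seq ψ (R.RT n x))).mpr ?_
  exact T_le_Bc _ _ _ (h'.seq_RT' hr hR n (mem_Zc.mp hx).1)

theorem rH_mapH' (h : IsGMor P P' φ) (h' : IsGMor P P' ψ)
    (hr : ∀ {n x}, x ∈ P.S.S n → R'.r n (φ n x) - ψ n (R.r n x) ∈ P'.T.S n)
    (hR : P.RStable R) (hR' : P'.RStable R') (n : ℕ) (x : P.HH n) :
    GCx.Pair.rH hR' n (h.mapH n x) = h'.mapH n (GCx.Pair.rH hR n x) := by
  obtain ⟨x, hx, rfl⟩ := H.exists_mk x
  refine (H.mk_eq_mk (x := R'.r n (φ n x)) (y := ψ n (R.r n x))).mpr ?_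
  exact T_le_Bc _ _ _ (hr (mem_Zc.mp hx).1)

end Twisted

end IsGMor

/-- Pure linear algebra: two operators with `P₁ P₂ = P₂ P₁ = 0`, `P₁ + P₂` bijective, exchanged by
`r`. -/
theorem chi_eq_zero_of_exchange {A : Type*} [AddCommGroup A] [Module k A] (r P₁ P₂ : A →ₗ[k] A)
    (h12 : ∀ x, P₁ (P₂ x) = 0) (h21 : ∀ x, P₂ (P₁ x) = 0)
    (hb : Function.Bijective fun x => P₁ x + P₂ x)
    (hr1 : ∀ x, r (P₁ x) = P₂ (r x)) (hr2 : ∀ x, r (P₂ x) = P₁ (r x)) : chi r = 0 := by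
  refine chi_eq_zero_of_anticomm r (P₁ - P₂) ?_ fun a => ?_
  · have h : ∀ x, (P₁ - P₂) ((P₁ - P₂) x) = (fun x => P₁ x + P₂ x) ((fun x => P₁ x + P₂ x) x) := by
      intro x
      simp only [LinearMap.sub_apply, map_sub, map_add, h12, h21]
      abel
    have h2 : Function.Bijective (⇑(P₁ - P₂) ∘ ⇑(P₁ - P₂)) := by
      have : ⇑(P₁ - P₂) ∘ ⇑(P₁ - P₂) = (fun x => P₁ x + P₂ x) ∘ fun x => P₁ x + P₂ x :=
        funext h
      rw [this]
      exact hb.comp hb
    exact ⟨h2.1.of_comp, h2.2.of_comp⟩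
  · simp only [LinearMap.sub_apply, map_sub, hr1, hr2]
    abel

section Main

variable {P : G.Pair} {R : Rev G} {φ₁ φ₂ : ∀ n, C.K n →ₗ[k] C.K n}

/-- **Balanced pairs.** If `φ₁`, `φ₂` are morphisms of the pair with `φ₁ φ₂ = φ₂ φ₁ = 0`, exchanged
by the reversal, and `φ₁ + φ₂` is bijective on `H`, then the traces of the reversal vanish on `H`
and on `F`. -/
theorem chi_eq_zero_of_balanced (hR : P.RStable R) (h₁ : IsGMor P P φ₁) (h₂ : IsGMor P P φ₂)
    (h12 : ∀ {n x}, x ∈ P.S.S n → φ₁ n (φ₂ n x) ∈ P.T.S n)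
    (h21 : ∀ {n x}, x ∈ P.S.S n → φ₂ n (φ₁ n x) ∈ P.T.S n)
    (hr : ∀ {n x}, x ∈ P.S.S n → R.r n (φ₁ n x) - φ₂ n (R.r n x) ∈ P.T.S n)
    (hb : ∀ n, Function.Bijective ((h₁.add' h₂).mapH n)) (n : ℕ) :
    chi (GCx.Pair.rH hR n) = 0 ∧ chi (GCx.Pair.rF hR n) = 0 := by
  have hr' : ∀ {n x}, x ∈ P.S.S n → R.r n (φ₂ n x) - φ₁ n (R.r n x) ∈ P.T.S n := by
    intro n x hx
    have h1 := hR.T _ _ (hr (hR.S _ _ hx))
    rw [map_sub, R.r_r, R.r_r] at h1
    have := Submodule.neg_mem _ h1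
    convert this using 1
    abel
  constructor
  · refine chi_eq_zero_of_exchange _ (h₁.mapH n) (h₂.mapH n) (fun x => ?_) (fun x => ?_) ?_
      (fun x => IsGMor.rH_mapH' h₁ h₂ hr hR hR n x) (fun x => IsGMor.rH_mapH' h₂ h₁ hr' hR hR n x)
    · rw [← IsGMor.mapH_comp]
      exact IsGMor.mapH_eq_zero _ (fun hx => h12 hx) n x
    · rw [← IsGMor.mapH_comp]
      exact IsGMor.mapH_eq_zero _ (fun hx => h21 hx) n x
    · convert hb n using 1
      funext x
      rw [IsGMor.mapH_add']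
  · refine chi_eq_zero_of_exchange _ (h₁.mapF n) (h₂.mapF n) (fun x => ?_) (fun x => ?_) ?_
      (fun x => IsGMor.rF_mapF' h₁ h₂ hr hR hR n x) (fun x => IsGMor.rF_mapF' h₂ h₁ hr' hR hR n x)
    · rw [← IsGMor.mapF_comp]
      exact IsGMor.mapF_eq_zero _ (fun hx => h12 hx) n x
    · rw [← IsGMor.mapF_comp]
      exact IsGMor.mapF_eq_zero _ (fun hx => h21 hx) n x
    · convert (h₁.add' h₂).mapF_bijective hb n using 1
      funext x
      rw [IsGMor.mapF_add']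

end Main

end Vale.Agent.P216.AS
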