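import Vale.Agent.P216.H467.CrossBal
import Vale.Agent.P216.H494.CrossGeo

/-! # CROSS (ii): crossings of a `GSys` are balanced -/

open Set Topology

namespace Vale.Agent.P216.GSys

open AS

variable {Λ : Type} [MetricSpace Λ] (S : GSys Λ)

/-- Near every level `a > 0` the crossing data exist, for all small `ε`. -/
theorem exists_crossData {p : ℕ} (hp : p.Prime) (hp2 : 2 < p) {a : ℝ} (ha : 0 < a) :
    ∃ ε₀ > 0, ε₀ < a ∧ ∀ ε, 0 < ε → ε ≤ ε₀ → Nonempty (S.CrossData p (a - ε) (a + ε)) := by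
  obtain ⟨D, hc, h0, hm, hτ, hr, hθ, hK, hpass⟩ := S.descent p hp hp2 (a + 1) (by linarith)
  have h1 : (1 : ℝ) ∈ Icc (0 : ℝ) 1 := ⟨zero_le_one, le_rfl⟩
  have hD1 : ContinuousOn (D 1) (S.X (a + 1)) := by
    have h2 : ContinuousOn (fun x : Λ => ((1 : ℝ), x)) (S.X (a + 1)) :=
      (Continuous.prodMk_right (1 : ℝ)).continuousOn
    exact hc.comp h2 fun x hx => ⟨h1, hx⟩
  obtain ⟨N⟩ := H494.exists_crossNbhd S hp.pos ha (show a < a + 1 by linarith) hD1
    (hm 1 h1 _ le_rfl) (hK 1 h1 a ha (by linarith)).1 (hK 1 h1 a ha (by linarith)).2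
    (hpass a ha (by linarith))
  refine ⟨min N.ε (a / 2), lt_min N.ε_pos (by linarith),
    (min_le_right _ _).trans_lt (by linarith), fun ε hε hle => ?_⟩
  have hεN : ε ≤ N.ε := hle.trans (min_le_left _ _)
  have hT : a + ε ≤ a + 1 := by linarith [N.le_T]
  have hX : S.X (a + ε) ⊆ S.X (a + 1) := S.mono _ _ hT
  refine ⟨{
    D := D
    N₁ := N.N1
    N₂ := N.N2
    δ := N.δ
    δ_pos := N.δ_pos
    le := by linarith
    htpy := IsHtpy.of_continuousOn (S.compact _) (hc.mono (prod_mono le_rfl hX))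
      (fun u hu => hm u hu _ hT) fun u hu _ x hx => hτ u hu x (hX hx)
    D_zero := fun x hx => h0 x (hX hx)
    D_mem := fun u hu => hm u hu _ (by linarith)
    D_rot := fun x hx => hr 1 h1 x (hX hx)
    D_θ := fun x hx => hθ x (hX hx)
    N₁_τ := fun x hx => N.τ_N1 x (hX hx)
    N₂_τ := fun x hx => N.τ_N2 x (hX hx)
    N₁_rot := fun x hx => N.rot_N1 x (hX hx)
    N₂_rot := fun x hx => N.rot_N2 x (hX hx)
    N_θ := fun x hx => N.θ_N2 x (hX hx)
    disj := fun x _ hx1 hx2 => ?_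
    D₁₂ := fun x _ hx1 => N.D_N1 x hx1
    D₂₁ := fun x _ hx2 => N.D_N2 x hx2
    cover := fun z hz hz' => ?_ }⟩
  · have := N.dist_N x hx1 x hx2
    rw [dist_self] at this
    linarith [N.δ_pos]
  · have hzU : z ∈ N.U1 ∪ N.U2 := by
      by_contra h
      exact hz' (N.cross ε hε hεN z hz h)
    rcases hzU with hz1 | hz2
    · exact Or.inl fun x hx hxz => N.margin1 z hz1 x (hX hx) (by rwa [dist_comm])
    · exact Or.inr fun x hx hxz => N.margin2 z hz2 x (hX hx) (by rwa [dist_comm])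

/-- **CROSS (ii).** For every level `a > 0` and all small `ε > 0` the traces of the reversal on the
relative cohomology and on the relative equivariant cohomology of `(X (a + ε), X (a - ε))`
vanish. -/
theorem chi_cross {p : ℕ} (hp : p.Prime) (hp2 : 2 < p) {a : ℝ} (ha : 0 < a) :
    ∃ ε₀ > 0, ε₀ < a ∧ ∀ ε, 0 < ε → ε ≤ ε₀ → ∀ (k : Type) [Field k]
      (P : (S.G k p hp.pos).Pair), P.S = S.Z k (a + ε) (S.X (a - ε)) → P.T = S.CT k (a + ε) →
      ∀ (hR : P.RStable (S.R k p hp.pos)) (n : ℕ),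
        chi (GCx.Pair.rH hR n) = 0 ∧ chi (GCx.Pair.rF hR n) = 0 := by
  obtain ⟨ε₀, hε₀, hlt, h⟩ := S.exists_crossData hp hp2 ha
  refine ⟨ε₀, hε₀, hlt, fun ε hε hle k _ P hS hT hR n => ?_⟩
  obtain ⟨B⟩ := h ε hε hle
  obtain ⟨PS, PT, h1, h2, h3⟩ := P
  simp only at hS hT
  subst hS hT
  exact B.chi_eq_zero hp.pos n

end Vale.Agent.P216.GSys
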