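import Vale.Agent.P216.H467.Cut

/-! # A crossing whose critical set splits in two parts exchanged by the reversal is balanced -/

open Set Matrix

namespace Vale.Agent.P216.AS

variable {E : Type} {k : Type} [Field k] {I : Type} {N N' : Set E} {f : E → E} {n : ℕ}

/-- `cutK` and a symmetry `ρ`. -/
theorem cutK_comp {V : Set E} {ρ : E → E} (hN : ∀ x ∈ V, (ρ x ∈ N ↔ x ∈ N'))
    (hf : ∀ x ∈ V, f (ρ x) = ρ (f x)) (c : (ASK E k).K n) {x : Fin (n + 1) → E}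
    (hx : ∀ i, x i ∈ V) : cutK k N f n c (ρ ∘ x) = cutK k N' f n (pbK k ρ n c) x := by
  by_cases h : x 0 ∈ N'
  · rw [cutK_of_mem h, cutK_of_mem (x := ρ ∘ x) ((hN _ (hx 0)).2 h)]
    change c (f ∘ ρ ∘ x) = c (ρ ∘ f ∘ x)
    congr 1
    funext i
    exact hf _ (hx i)
  · rw [cutK_of_notMem h, cutK_of_notMem (x := ρ ∘ x) fun h' => h ((hN _ (hx 0)).1 h')]

end Vale.Agent.P216.AS

namespace Vale.Agent.P216.GSys

open AS

variable {Λ : Type} [PseudoMetricSpace Λ] (S : GSys Λ) {k : Type} [Field k]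

/-- The geometric data of a balanced crossing of `s < t`: `D` is the descent, `N₁`, `N₂` are
neighbourhoods of the two parts of the critical set. -/
structure CrossData (p : ℕ) (s t : ℝ) where
  D : ℝ → Λ → Λ
  N₁ : Set Λ
  N₂ : Set Λ
  δ : ℝ
  δ_pos : 0 < δ
  le : s ≤ t
  htpy : IsHtpy S.da S.da (S.X t) (S.X t) D
  D_zero : ∀ x ∈ S.X t, D 0 x = x
  D_mem : ∀ u ∈ Icc (0 : ℝ) 1, MapsTo (D u) (S.X s) (S.X s)
  D_rot : ∀ x ∈ S.X t, D 1 (S.rot p x) = S.rot p (D 1 x)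
  D_θ : ∀ x ∈ S.X t, D 1 (S.θ x) = S.θ (D 1 x)
  N₁_τ : ∀ x ∈ S.X t, (S.τ x ∈ N₁ ↔ x ∈ N₁)
  N₂_τ : ∀ x ∈ S.X t, (S.τ x ∈ N₂ ↔ x ∈ N₂)
  N₁_rot : ∀ x ∈ S.X t, (S.rot p x ∈ N₁ ↔ x ∈ N₁)
  N₂_rot : ∀ x ∈ S.X t, (S.rot p x ∈ N₂ ↔ x ∈ N₂)
  N_θ : ∀ x ∈ S.X t, (S.θ x ∈ N₁ ↔ x ∈ N₂)
  disj : ∀ x ∈ S.X t, x ∈ N₁ → x ∉ N₂
  D₁₂ : ∀ x ∈ S.X t, x ∈ N₁ → D 1 x ∉ N₂
  D₂₁ : ∀ x ∈ S.X t, x ∈ N₂ → D 1 x ∉ N₁
  cover : ∀ z ∈ S.X t, D 1 z ∉ S.X s →
    (∀ x ∈ S.X t, dist x z < δ → x ∈ N₁) ∨ (∀ x ∈ S.X t, dist x z < δ → x ∈ N₂)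

namespace CrossData

variable {S} {p : ℕ} {s t : ℝ} (B : S.CrossData p s t)

/-- The same data with the two neighbourhoods exchanged. -/
def swap : S.CrossData p s t where
  D := B.D
  N₁ := B.N₂
  N₂ := B.N₁
  δ := B.δ
  δ_pos := B.δ_pos
  le := B.le
  htpy := B.htpy
  D_zero := B.D_zero
  D_mem := B.D_mem
  D_rot := B.D_rot
  D_θ := B.D_θ
  N₁_τ := B.N₂_τ
  N₂_τ := B.N₁_τ
  N₁_rot := B.N₂_rot
  N₂_rot := B.N₁_rot
  N_θ x hx := by rw [← B.N_θ _ (S.θ_mem t hx), S.θ_θ]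
  disj x hx h h' := B.disj x hx h' h
  D₁₂ := B.D₂₁
  D₂₁ := B.D₁₂
  cover z hz hz' := (B.cover z hz hz').symm

variable (k)

/-- The pair. -/
abbrev P (hp : 0 < p) : (S.G k p hp).Pair :=
  S.pairZ k hp t (S.X s) (S.mono _ _ B.le) (S.rot_mem p s)

theorem rstable (hp : 0 < p) : (B.P k hp).RStable (S.R k p hp) where
  S := S.rstable_Z hp (S.mono _ _ B.le) (S.θ_mem s)
  T := S.rstable_CT hp t

/-- The first operator. -/
noncomputable abbrev φ (n : ℕ) : (ASK Λ k).K n →ₗ[k] (ASK Λ k).K n := cutK k B.N₁ (B.D 1) n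

variable {k}

theorem D_one_mem : MapsTo (B.D 1) (S.X s) (S.X s) := B.D_mem 1 ⟨zero_le_one, le_rfl⟩

theorem isMor : IsMor (S.Z k t (S.X s)) (S.CT k t) (S.Z k t (S.X s)) (S.CT k t) (B.φ k) := by
  refine cutK_isMor B.htpy.one (S.mono _ _ B.le) B.D_one_mem (fun _ => B.N₁_τ) B.δ_pos ?_
  intro x hx y hy z hz _ hzx hzy h1 h2
  by_contra h
  rcases B.cover z hz h with h' | h'
  · exact h2 (h' y hy (by rwa [dist_comm]))
  · exact B.disj x hx h1 (h' x hx (by rwa [dist_comm]))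

theorem rot_iter_mem (i : ℕ) {x : Λ} (hx : x ∈ S.X t) : (S.rot p)^[i] x ∈ S.X t := by
  induction i with
  | zero => exact hx
  | succ i ih => rw [Function.iterate_succ_apply']; exact S.rot_mem p t ih

theorem N₁_iter (i : ℕ) {x : Λ} (hx : x ∈ S.X t) : ((S.rot p)^[i] x ∈ B.N₁ ↔ x ∈ B.N₁) := by
  induction i with
  | zero => exact Iff.rfl
  | succ i ih => rw [Function.iterate_succ_apply', B.N₁_rot _ (rot_iter_mem i hx), ih]

theorem D_iter (i : ℕ) {x : Λ} (hx : x ∈ S.X t) :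
    B.D 1 ((S.rot p)^[i] x) = (S.rot p)^[i] (B.D 1 x) := by
  induction i with
  | zero => rfl
  | succ i ih =>
    rw [Function.iterate_succ_apply', B.D_rot _ (rot_iter_mem i hx), ih,
      Function.iterate_succ_apply']

theorem isGMor (hp : 0 < p) : IsGMor (B.P k hp) (B.P k hp) (B.φ k) where
  toIsMor := B.isMor
  comm_g {n c} hc := by
    have hS := (B.P k hp).hS
    refine sub_mem_Zr (hS.g_mem n _ (B.isMor.mapS hc)).1 (B.isMor.mapS (hS.g_mem n _ hc)).1 ?_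
    intro x hx
    exact cutK_comp B.N₁_rot B.D_rot c hx
  comm_nm {n c} hc := by
    have hS := (B.P k hp).hS
    refine sub_mem_Zr (hS.nm_mem n _ (B.isMor.mapS hc)).1 (B.isMor.mapS (hS.nm_mem n _ hc)).1 ?_
    intro x hx
    have e1 : ∀ i ∈ Finset.range p, cutK k B.N₁ (B.D 1) n c ((S.rot p)^[i] ∘ x) =
        cutK k B.N₁ (B.D 1) n (pbK k ((S.rot p)^[i]) n c) x := fun i _ =>
      cutK_comp (fun y hy => B.N₁_iter i hy) (fun y hy => B.D_iter i hy) c hx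
    rw [rotG_nm_apply, Finset.sum_congr rfl e1]
    by_cases h : x 0 ∈ B.N₁
    · rw [cutK_of_mem h, rotG_nm_apply]
      exact Finset.sum_congr rfl fun i _ => cutK_of_mem h
    · rw [cutK_of_notMem h]
      exact Finset.sum_eq_zero fun i _ => cutK_of_notMem h

theorem orth {n : ℕ} {c : (ASK Λ k).K n} (hc : c ∈ S.Z k t (S.X s) n) :
    B.φ k n (B.swap.φ k n c) ∈ S.CT k t n := by
  have h1 := B.isMor.mapS (B.swap.isMor.mapS hc)
  have h2 := sub_mem_Zr (c' := 0) h1.1 eqv_zero (V := S.X t) fun x hx => ?_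
  · rwa [sub_zero] at h2
  · change cutK k B.N₁ (B.D 1) n _ x = 0
    by_cases h : x 0 ∈ B.N₁
    · rw [cutK_of_mem h]
      exact cutK_of_notMem (B.D₁₂ _ (hx 0) h)
    · exact cutK_of_notMem h

theorem rev {p : ℕ} (B : S.CrossData p s t) (hp : 0 < p) {n : ℕ} {c : (ASK Λ k).K n}
    (hc : c ∈ S.Z k t (S.X s) n) :
    (S.R k p hp).r n (B.φ k n c) - B.swap.φ k n ((S.R k p hp).r n c) ∈ S.CT k t n := by
  have hR := (B.rstable k hp).S
  refine sub_mem_Zr (hR n _ (B.isMor.mapS hc)).1 (B.swap.isMor.mapS (hR n _ hc)).1 ?_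
  intro x hx
  exact cutK_comp B.N_θ B.D_θ c hx

theorem mapH_add (hp : 0 < p) (n : ℕ) (y : (B.P k hp).HH n) :
    ((B.isGMor hp).add' (B.swap.isGMor hp)).mapH n y = y := by
  obtain ⟨c, hc, rfl⟩ := H.exists_mk y
  refine (H.mk_eq_mk (x := B.φ k n c + B.swap.φ k n c) (y := c)).mpr ?_
  -- homotopy
  have hc' : c ∈ Zc (Zr S.da (dχ k) (S.X t) (S.X s)) (Zr S.da (dχ k) (S.X t) (S.X t)) n := hc
  have h1 : pbK k (B.D 1) n c - pbK k (B.D 0) n c ∈
      Bc (Zr S.da (dχ k) (S.X t) (S.X s)) (Zr S.da (dχ k) (S.X t) (S.X t)) n :=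
    homotopy_mem B.htpy (S.mono _ _ B.le) B.D_mem hc'
  have h2 : pbK k (B.D 0) n c - c ∈ Zr S.da (dχ k) (S.X t) (S.X t) n := by
    refine sub_mem_Zr (B.htpy.zero.pb_eqv hc'.1.1) hc'.1.1 fun x hx => ?_
    change c (B.D 0 ∘ x) = c x
    congr 1
    funext i
    exact B.D_zero _ (hx i)
  have h3 : B.φ k n c + B.swap.φ k n c - pbK k (B.D 1) n c ∈
      Zr S.da (dχ k) (S.X t) (S.X t) n := by
    obtain ⟨hcE, ε, hε, h4⟩ := hc'.1
    obtain ⟨η, hη, h5⟩ := B.htpy.one.uc ε hε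
    refine ⟨((B.isMor.mapS hc'.1).1.add (B.swap.isMor.mapS hc'.1).1).sub
      (B.htpy.one.pb_eqv hcE), min B.δ η, lt_min B.δ_pos hη, fun x hx => ?_⟩
    change cutK k B.N₁ (B.D 1) n c x + cutK k B.N₂ (B.D 1) n c x - c (B.D 1 ∘ x) = 0
    by_cases hx1 : x 0 ∈ B.N₁
    · rw [cutK_of_mem hx1, cutK_of_notMem (B.disj _ (hx.1 0) hx1), add_zero, sub_self]
    · by_cases hx2 : x 0 ∈ B.N₂
      · rw [cutK_of_mem hx2, cutK_of_notMem hx1, zero_add, sub_self]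
      · rw [cutK_of_notMem hx1, cutK_of_notMem hx2, zero_add, zero_sub, neg_eq_zero]
        refine h4 _ ⟨fun j => ?_, fun i j => ?_⟩
        · by_contra h
          rcases B.cover (x j) (hx.1 j) h with h' | h'
          · exact hx1 (h' _ (hx.1 0) ((hx.2 0 j).trans_le (min_le_left _ _)))
          · exact hx2 (h' _ (hx.1 0) ((hx.2 0 j).trans_le (min_le_left _ _)))
        · exact h5 _ (hx.1 i) _ (hx.1 j) ((hx.2 i j).trans_le (min_le_right _ _))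
  have h6 := Submodule.add_mem _ (Submodule.add_mem _ (T_le_Bc _ _ _ h3) h1) (T_le_Bc _ _ _ h2)
  rw [sub_add_sub_cancel, sub_add_sub_cancel] at h6
  exact h6

/-- **Balanced crossings**: the trace of the reversal on the relative cohomology and on the relative
equivariant cohomology vanishes. -/
theorem chi_eq_zero (hp : 0 < p) (n : ℕ) :
    chi (GCx.Pair.rH (B.rstable k hp) n) = 0 ∧ chi (GCx.Pair.rF (B.rstable k hp) n) = 0 := by
  refine chi_eq_zero_of_balanced (B.rstable k hp) (B.isGMor hp) (B.swap.isGMor hp)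
    (fun hx => B.orth hx) (fun hx => B.swap.orth hx) (fun hx => B.rev hp hx) (fun n => ?_) n
  have : ⇑(((B.isGMor (k := k) hp).add' (B.swap.isGMor hp)).mapH n) = id :=
    funext fun y => B.mapH_add hp n y
  rw [this]
  exact Function.bijective_id

end CrossData

end Vale.Agent.P216.GSys
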