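import Vale.Agent.P216.Cross.GRot
import Vale.Agent.P216.H467.Bal

/-! # Cutting cochains off by the first vertex (CROSS (ii)) -/

open Set Matrix

namespace Vale.Agent.P216.AS

variable {E : Type} {k : Type} [Field k] {I : Type}

open Classical in
/-- Pull back by `f` and multiply by the indicator function of `x 0 ∈ N`. -/
noncomputable def cutK (k : Type) [Field k] (N : Set E) (f : E → E) (n : ℕ) :
    (ASK E k).K n →ₗ[k] (ASK E k).K n where
  toFun c x := if x 0 ∈ N then c (f ∘ x) else 0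
  map_add' c c' := by
    funext x
    change (if x 0 ∈ N then c (f ∘ x) + c' (f ∘ x) else 0) =
      (if x 0 ∈ N then c (f ∘ x) else 0) + (if x 0 ∈ N then c' (f ∘ x) else 0)
    split_ifs <;> simp
  map_smul' t c := by
    funext x
    change (if x 0 ∈ N then t * c (f ∘ x) else 0) = t * (if x 0 ∈ N then c (f ∘ x) else 0)
    split_ifs <;> simp

variable {N N₁ N₂ : Set E} {f : E → E} {n : ℕ}

theorem cutK_of_mem {c : (ASK E k).K n} {x : Fin (n + 1) → E} (h : x 0 ∈ N) :
    cutK k N f n c x = c (f ∘ x) := if_pos h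

theorem cutK_of_notMem {c : (ASK E k).K n} {x : Fin (n + 1) → E} (h : x 0 ∉ N) :
    cutK k N f n c x = 0 := if_neg h

theorem cutK_eq_zero {c : (ASK E k).K n} {x : Fin (n + 1) → E} (h : c (f ∘ x) = 0) :
    cutK k N f n c x = 0 := by
  by_cases h' : x 0 ∈ N
  · rw [cutK_of_mem h', h]
  · exact cutK_of_notMem h'

/-- The defect of `cutK` to be a chain map. -/
theorem d_cutK (c : (ASK E k).K n) (x : Fin (n + 2) → E)
    (h : (x 0 ∈ N ↔ x 1 ∈ N) ∨ c (f ∘ vecTail x) = 0) :
    (ASK E k).d n (cutK k N f n c) x = cutK k N f (n + 1) ((ASK E k).d n c) x := by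
  change P265.AS.d (cutK k N f n c) x = cutK k N f (n + 1) (P265.AS.d c) x
  rw [P265.AS.d_succ_apply]
  by_cases h0 : x 0 ∈ N
  · have e1 : (fun y => cutK k N f n c (vecCons (vecHead x) y)) =
        fun y => P265.AS.pb f c (vecCons (vecHead x) y) := by
      funext y
      rw [cutK_of_mem]
      · rfl
      · exact h0
    have e2 : cutK k N f (n + 1) (P265.AS.d c) x = P265.AS.d (P265.AS.pb f c) x := by
      rw [cutK_of_mem h0, P265.AS.d_pb]
      rfl
    rw [e1, e2, P265.AS.d_succ_apply]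
    congr 1
    rcases h with h | h
    · rw [cutK_of_mem]
      · rfl
      · exact h.1 h0
    · rw [cutK_eq_zero h]
      exact h.symm
  · have e1 : (fun y => cutK k N f n c (vecCons (vecHead x) y)) = 0 := by
      funext y
      rw [cutK_of_notMem]
      · rfl
      · exact h0
    rw [e1, P265.AS.d_zero, cutK_of_notMem h0]
    change _ - (0 : k) = 0
    rw [sub_zero]
    rcases h with h | h
    · exact cutK_of_notMem fun h1 => h0 (h.2 h1)
    · exact cutK_eq_zero h

section Metric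

variable [PseudoMetricSpace E] {a : I → E → E} {χ : I → k} {V A : Set E}

/-- Two cochains which agree on the tuples of `V` are equal modulo the cochains vanishing on the
small tuples of `V`. -/
theorem sub_mem_Zr {c c' : (ASK E k).K n} (hc : Eqv a χ V c) (hc' : Eqv a χ V c')
    (h : ∀ x : Fin (n + 1) → E, (∀ i, x i ∈ V) → c x = c' x) : c - c' ∈ Zr a χ V V n := by
  refine ⟨?_, 1, one_pos, fun x hx => ?_⟩
  · intro i x hx
    have h1 := hc i x hx
    have h2 := hc' i x hx
    change c (a i ∘ x) - c' (a i ∘ x) = χ i * (c x - c' x)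
    rw [h1, h2, mul_sub]
  · change c x - c' x = 0
    rw [h x hx.1, sub_self]

theorem cutK_eqv (hf : IsMap a a V V f) (hN : ∀ i, ∀ x ∈ V, (a i x ∈ N ↔ x ∈ N))
    {c : (ASK E k).K n} (hc : Eqv a χ V c) : Eqv a χ V (cutK k N f n c) := by
  intro i x hx
  by_cases h : x 0 ∈ N
  · rw [cutK_of_mem h, cutK_of_mem (x := a i ∘ x) ((hN i _ (hx 0)).2 h)]
    exact hf.pb_eqv hc i x hx
  · rw [cutK_of_notMem h, cutK_of_notMem (x := a i ∘ x) fun h' => h ((hN i _ (hx 0)).1 h'),
      mul_zero]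

theorem cutK_van (hf : IsMap a a V V f) (hA : A ⊆ V) (hfA : MapsTo f A A) {c : (ASK E k).K n}
    (hc : Van A c) : Van A (cutK k N f n c) := by
  obtain ⟨ε, hε, h⟩ := hf.pb_van (a' := a) hA hfA hc
  exact ⟨ε, hε, fun x hx => cutK_eq_zero (h x hx)⟩

/-- `cutK` as a morphism of the pair `(V, A)`. -/
theorem cutK_isMor (hf : IsMap a a V V f) (hA : A ⊆ V) (hfA : MapsTo f A A)
    (hN : ∀ i, ∀ x ∈ V, (a i x ∈ N ↔ x ∈ N)) {δ : ℝ} (hδ : 0 < δ)
    (hcut : ∀ x ∈ V, ∀ y ∈ V, ∀ z ∈ V, dist x y < δ → dist z x < δ → dist z y < δ →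
      x ∈ N → y ∉ N → f z ∈ A) :
    IsMor (Zr a χ V A) (Zr a χ V V) (Zr a χ V A) (Zr a χ V V) (cutK k N f) where
  mapS hc := ⟨cutK_eqv hf hN hc.1, cutK_van hf hA hfA hc.2⟩
  mapT hc := ⟨cutK_eqv hf hN hc.1, cutK_van hf le_rfl hf.mapsX hc.2⟩
  comm {n c} hc := by
    obtain ⟨hcE, ε, hε, h1⟩ := hc
    obtain ⟨η, hη, h2⟩ := hf.uc ε hε
    refine ⟨?_, min δ η, lt_min hδ hη, fun x hx => ?_⟩
    · have e1 : Eqv a χ V ((ASK E k).d n (cutK k N f n c)) := (cutK_eqv hf hN hcE).d
      have e2 : Eqv a χ V (cutK k N f (n + 1) ((ASK E k).d n c)) := cutK_eqv hf hN hcE.d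
      intro i x hx
      have h3 := e1 i x hx
      have h4 := e2 i x hx
      change _ - _ = χ i * (_ - _)
      rw [h3, h4, mul_sub]
    · change (ASK E k).d n (cutK k N f n c) x - cutK k N f (n + 1) ((ASK E k).d n c) x = 0
      rw [d_cutK, sub_self]
      have hd : ∀ i j, dist (x i) (x j) < δ := fun i j => (hx.2 i j).trans_le (min_le_left _ _)
      by_cases hiff : (x 0 ∈ N ↔ x 1 ∈ N)
      · exact Or.inl hiff
      · refine Or.inr (h1 _ ⟨fun j => ?_, fun i j => ?_⟩)
        · change f (x j.succ) ∈ A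
          by_cases h0 : x 0 ∈ N
          · exact hcut (x 0) (hx.1 0) (x 1) (hx.1 1) _ (hx.1 _) (hd _ _) (hd _ _) (hd _ _) h0
              fun h1 => hiff ⟨fun _ => h1, fun _ => h0⟩
          · refine hcut (x 1) (hx.1 1) (x 0) (hx.1 0) _ (hx.1 _) (hd _ _) (hd _ _) (hd _ _) ?_ h0
            by_contra h1
            exact hiff ⟨fun h => absurd h h0, fun h => absurd h h1⟩
        · exact h2 _ (hx.1 _) _ (hx.1 _) ((hx.2 _ _).trans_le (min_le_right _ _))

end Metric

end Vale.Agent.P216.AS
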